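import Vale.Agent.P038.H202.Key

/-!
# P038: Seymour's second neighbourhood conjecture

Out-neighbourhoods are given by `o : V → Finset V`.  `cl o X` is the closed out-neighbourhood of
`X`.  Part 1: in a counterexample with the fewest arcs, `|N₁ X| > |N₂ X|` for every set `X` with
`N₁ X ≠ ∅`.  Part 2: comparison of the inner and the outer minimum.  Part 3: contradiction.
-/

namespace Vale.P038.H202

open Finset

variable {V : Type*} [Fintype V] [DecidableEq V]

/-- Closed out-neighbourhood of a set. -/
def cl (o : V → Finset V) (X : Finset V) : Finset V := X ∪ X.biUnion o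

/-- Number of the new vertices in the closed out-neighbourhood. -/
def cc (o : V → Finset V) (X : Finset V) : ℕ := (cl o X \ X).card

/-- Vertices at distance exactly two. -/
def N2 (o : V → Finset V) (v : V) : Finset V := (o v).biUnion o \ insert v (o v)

/-- No loops and no opposite arcs. -/
def Orient (o : V → Finset V) : Prop := ∀ u v, u ∈ o v → v ∉ o u

/-- Counterexample to the conjecture. -/
def CE (o : V → Finset V) : Prop := Orient o ∧ ∀ v, (N2 o v).card < (o v).card

omit [Fintype V] in
lemma mem_cl {o : V → Finset V} {X : Finset V} {z : V} :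
    z ∈ cl o X ↔ z ∈ X ∨ ∃ x ∈ X, z ∈ o x := by
  simp [cl]

omit [Fintype V] in
lemma sub_cl (o : V → Finset V) (X : Finset V) : X ⊆ cl o X := subset_union_left

omit [Fintype V] in
lemma cl_mono (o : V → Finset V) {X Y : Finset V} (h : X ⊆ Y) : cl o X ⊆ cl o Y := by
  intro z hz
  rw [mem_cl] at hz ⊢
  rcases hz with hz | ⟨x, hx, hz⟩
  · exact Or.inl (h hz)
  · exact Or.inr ⟨x, h hx, hz⟩

omit [Fintype V] in
lemma cl_union (o : V → Finset V) (X Y : Finset V) : cl o (X ∪ Y) = cl o X ∪ cl o Y := by
  ext z
  simp only [mem_cl, mem_union]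
  constructor
  · rintro ((h | h) | ⟨x, h | h, hx⟩)
    · exact Or.inl (Or.inl h)
    · exact Or.inr (Or.inl h)
    · exact Or.inl (Or.inr ⟨x, h, hx⟩)
    · exact Or.inr (Or.inr ⟨x, h, hx⟩)
  · rintro ((h | ⟨x, h, hx⟩) | (h | ⟨x, h, hx⟩))
    · exact Or.inl (Or.inl h)
    · exact Or.inr ⟨x, Or.inl h, hx⟩
    · exact Or.inl (Or.inr h)
    · exact Or.inr ⟨x, Or.inr h, hx⟩

omit [Fintype V] in
lemma cc_add (o : V → Finset V) (X : Finset V) : cc o X + X.card = (cl o X).card :=
  card_sdiff_add_card_eq_card (sub_cl o X)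

omit [Fintype V] in
lemma cc_submod (o : V → Finset V) : Submod (cc o) := by
  intro X Y
  have h1 := cc_add o (X ∪ Y)
  have h2 := cc_add o (X ∩ Y)
  have h3 := cc_add o X
  have h4 := cc_add o Y
  have h5 := card_union_add_card_inter X Y
  have h6 := card_union_add_card_inter (cl o X) (cl o Y)
  have h7 : (cl o (X ∩ Y)).card ≤ (cl o X ∩ cl o Y).card :=
    card_le_card (subset_inter (cl_mono o inter_subset_left) (cl_mono o inter_subset_right))
  rw [cl_union] at h1
  omega

/-! ### Part 1 -/

lemma strictG (o : V → Finset V) (hCE : CE o)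
    (hmin : ∀ o' : V → Finset V, CE o' → ∑ v, (o v).card ≤ ∑ v, (o' v).card)
    (X : Finset V) (hX : cl o X ≠ X) : cc o (cl o X) < cc o X := by
  by_contra hcon
  push Not at hcon
  obtain ⟨hor, hce⟩ := hCE
  set L : Finset V := cl o X \ X with hL
  have hLne : L.Nonempty := by
    rw [hL, sdiff_nonempty]
    intro h
    exact hX (Subset.antisymm h (sub_cl o X))
  set d : Finset V → ℤ := fun T => ((cl o T \ X).card : ℤ) - 2 * T.card with hd
  have d0 : d ∅ = 0 := by simp [hd, cl]
  have dL : 0 ≤ d L := by
    have e : cl o L \ X = L ∪ (cl o (cl o X) \ cl o X) := by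
      ext z
      simp only [mem_sdiff, mem_union, mem_cl, hL]
      constructor
      · rintro ⟨h | ⟨x, ⟨hx, hx'⟩, hz⟩, hzX⟩
        · exact Or.inl h
        · by_cases hzz : z ∈ X ∨ ∃ x ∈ X, z ∈ o x
          · exact Or.inl ⟨hzz, hzX⟩
          · exact Or.inr ⟨Or.inr ⟨x, hx, hz⟩, hzz⟩
      · rintro (h | ⟨h | ⟨x, hx, hz⟩, h'⟩)
        · exact ⟨Or.inl h, h.2⟩
        · exact absurd h h'
        · have hzX : z ∉ X := fun h => h' (Or.inl h)
          refine ⟨Or.inr ⟨x, ⟨hx, ?_⟩, hz⟩, hzX⟩
          intro hxX
          exact h' (Or.inr ⟨x, hxX, hz⟩)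
    have e2 : (cl o L \ X).card = L.card + cc o (cl o X) := by
      rw [e, card_union_of_disjoint]
      · rfl
      · rw [disjoint_left]
        intro z hz hz'
        exact (mem_sdiff.1 hz').2 (mem_sdiff.1 hz).1
    have e3 : cc o X = L.card := rfl
    simp only [hd]
    rw [e2]
    push_cast
    omega
  obtain ⟨T, hT, hTmin⟩ := exists_min_image L.ssubsets d
    ⟨∅, mem_ssubsets.2 (empty_ssubset.2 hLne)⟩
  rw [mem_ssubsets] at hT
  have hTall : ∀ T', T' ⊆ L → d T ≤ d T' := by
    intro T' hT'
    by_cases h : T' = L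
    · rw [h]
      have := hTmin ∅ (mem_ssubsets.2 (empty_ssubset.2 hLne))
      omega
    · exact hTmin T' (mem_ssubsets.2 (hT'.ssubset_of_ne h))
  -- the smaller graph
  set o' : V → Finset V := fun v => if v ∈ X then o v ∩ (X ∪ T) else o v with ho'
  have hsub : ∀ v, o' v ⊆ o v := by
    intro v
    simp only [ho']
    split_ifs
    · exact inter_subset_left
    · exact Subset.rfl
  have hX' : ∀ v, v ∈ X → o' v = o v ∩ (X ∪ T) := by
    intro v hv
    simp only [ho', if_pos hv]
  have hnX' : ∀ v, v ∉ X → o' v = o v := by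
    intro v hv
    simp only [ho', if_neg hv]
  have hCE' : CE o' := by
    refine ⟨fun u v h h' => hor u v (hsub v h) (hsub u h'), ?_⟩
    intro y
    by_cases hy : y ∈ X
    · set D : Finset V := o y \ (X ∪ T) with hD
      set E : Finset V := cl o D \ (cl o T ∪ X) with hE
      have hDL : D ⊆ L := by
        intro z hz
        rw [hD, mem_sdiff, mem_union, not_or] at hz
        rw [hL, mem_sdiff, mem_cl]
        exact ⟨Or.inr ⟨y, hy, hz.1⟩, hz.2.1⟩
      have hdisj : Disjoint T D := by
        rw [disjoint_left]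
        intro z hz hz'
        rw [hD, mem_sdiff, mem_union, not_or] at hz'
        exact hz'.2.2 hz
      have hDE : 2 * D.card ≤ E.card := by
        have h1 := hTall (T ∪ D) (union_subset hT.1 hDL)
        have e1 : (T ∪ D).card = T.card + D.card := card_union_of_disjoint hdisj
        have e2 : cl o (T ∪ D) \ X = (cl o T \ X) ∪ E := by
          rw [cl_union, hE]
          ext z
          simp only [mem_sdiff, mem_union]
          tauto
        have e3 : (cl o (T ∪ D) \ X).card = (cl o T \ X).card + E.card := by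
          rw [e2, card_union_of_disjoint]
          rw [disjoint_left]
          intro z hz hz'
          rw [hE, mem_sdiff, mem_union, not_or] at hz'
          exact hz'.2.1 (mem_sdiff.1 hz).1
        simp only [hd] at h1
        rw [e1, e3] at h1
        push_cast at h1
        omega
      have hcard : (o' y).card + D.card = (o y).card := by
        rw [hX' y hy, hD]
        exact card_inter_add_card_sdiff _ _
      have hdisj2 : Disjoint (N2 o' y) E := by
        rw [disjoint_left]
        intro z hz hz'
        rw [hE, mem_sdiff, mem_union, not_or] at hz'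
        obtain ⟨_, hzT, hzX⟩ := hz'
        rw [N2, mem_sdiff, mem_biUnion] at hz
        obtain ⟨⟨x, hx, hzx⟩, _⟩ := hz
        rw [hX' y hy, mem_inter, mem_union] at hx
        obtain ⟨_, hxX | hxT⟩ := hx
        · rw [hX' x hxX, mem_inter, mem_union] at hzx
          rcases hzx.2 with h | h
          · exact hzX h
          · exact hzT (sub_cl o T h)
        · exact hzT (mem_cl.2 (Or.inr ⟨x, hxT, hsub x hzx⟩))
      have hsub2 : N2 o' y ∪ E ⊆ N2 o y ∪ D := by
        apply union_subset
        · intro z hz
          rw [N2, mem_sdiff, mem_biUnion, mem_insert, not_or] at hz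
          obtain ⟨⟨x, hx, hzx⟩, hzy, hzo⟩ := hz
          rw [mem_union]
          by_cases hzo' : z ∈ o y
          · right
            rw [hX' y hy, mem_inter, not_and] at hzo
            rw [hD, mem_sdiff]
            exact ⟨hzo', hzo hzo'⟩
          · left
            rw [N2, mem_sdiff, mem_biUnion, mem_insert, not_or]
            exact ⟨⟨x, hsub y hx, hsub x hzx⟩, hzy, hzo'⟩
        · intro z hz
          rw [hE, mem_sdiff, mem_union, not_or, mem_cl] at hz
          obtain ⟨hz1, hzT, hzX⟩ := hz
          rw [mem_union]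
          rcases hz1 with hz1 | ⟨x, hx, hzx⟩
          · exact Or.inr hz1
          · rw [hD, mem_sdiff] at hx
            by_cases hzo : z ∈ o y
            · right
              rw [hD, mem_sdiff, mem_union, not_or]
              exact ⟨hzo, hzX, fun h => hzT (sub_cl o T h)⟩
            · left
              rw [N2, mem_sdiff, mem_biUnion, mem_insert, not_or]
              exact ⟨⟨x, hx.1, hzx⟩, fun h => hzX (h ▸ hy), hzo⟩
      have h1 : (N2 o' y).card + E.card ≤ (N2 o y).card + D.card := by
        rw [← card_union_of_disjoint hdisj2]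
        exact (card_le_card hsub2).trans (card_union_le _ _)
      have h2 := hce y
      omega
    · have h1 : N2 o' y ⊆ N2 o y := by
        intro z hz
        rw [N2, mem_sdiff, mem_biUnion] at hz ⊢
        rw [hnX' y hy] at hz
        obtain ⟨⟨x, hx, hzx⟩, hz'⟩ := hz
        exact ⟨⟨x, hx, hsub x hzx⟩, hz'⟩
      have h2 := card_le_card h1
      have h3 := hce y
      rw [hnX' y hy]
      omega
  have hlt : ∑ v, (o' v).card < ∑ v, (o v).card := by
    obtain ⟨z, hzL, hzT⟩ := exists_of_ssubset hT
    rw [hL, mem_sdiff, mem_cl] at hzL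
    obtain ⟨hz, hzX⟩ := hzL
    rcases hz with hz | ⟨y, hy, hzy⟩
    · exact absurd hz hzX
    · apply sum_lt_sum (fun v _ => card_le_card (hsub v))
      refine ⟨y, mem_univ y, card_lt_card ?_⟩
      rw [hX' y hy]
      refine ⟨inter_subset_left, fun h => ?_⟩
      have := h hzy
      rw [mem_inter, mem_union] at this
      rcases this.2 with h' | h'
      · exact hzX h'
      · exact hzT h'
  have := hmin o' hCE'
  omega

lemma weakG (o : V → Finset V) (hCE : CE o)
    (hmin : ∀ o' : V → Finset V, CE o' → ∑ v, (o v).card ≤ ∑ v, (o' v).card)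
    (X : Finset V) : cc o (cl o X) ≤ cc o X := by
  by_cases h : cl o X = X
  · rw [h]
  · exact (strictG o hCE hmin X h).le

/-! ### Part 2 -/

/-- `a` is in the closed in-neighbourhood of `z`. -/
def rr (o : V → Finset V) (a z : V) : Prop := z = a ∨ z ∈ o a

instance (o : V → Finset V) : DecidableRel (rr o) := fun a z => by
  unfold rr; infer_instance

omit [Fintype V] in
lemma mem_cl' {o : V → Finset V} {X : Finset V} {z : V} :
    z ∈ cl o X ↔ ∃ a ∈ X, rr o a z := by
  rw [mem_cl]
  constructor
  · rintro (h | ⟨x, hx, h⟩)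
    · exact ⟨z, h, Or.inl rfl⟩
    · exact ⟨x, hx, Or.inr h⟩
  · rintro ⟨x, hx, h | h⟩
    · exact Or.inl (h ▸ hx)
    · exact Or.inr ⟨x, hx, h⟩

/-- Total size of a family. -/
def tot (F : V → Finset V) : ℕ := ∑ a, (F a).card

/-- The number `n ^ 2 + n`. -/
def KK (V : Type*) [Fintype V] [DecidableEq V] : ℕ :=
  ∑ a : V, ∑ b : V, (1 + if a = b then 1 else 0)

lemma tot_add (P Q : V → Finset V) : tot P + tot Q =
    ∑ a : V, ∑ b : V, ((if b ∈ P a then 1 else 0) + if a ∈ Q b then 1 else 0) := by
  have h1 : tot P = ∑ a : V, ∑ b : V, (if b ∈ P a then 1 else 0) := by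
    unfold tot
    apply sum_congr rfl
    intro a _
    rw [← sum_filter, sum_const, smul_eq_mul, mul_one]
    congr 1
    ext b
    simp
  have h2 : tot Q = ∑ a : V, ∑ b : V, (if a ∈ Q b then 1 else 0) := by
    rw [sum_comm]
    unfold tot
    apply sum_congr rfl
    intro b _
    rw [← sum_filter, sum_const, smul_eq_mul, mul_one]
    congr 1
    ext a
    simp
  rw [h1, h2, ← sum_add_distrib]
  apply sum_congr rfl
  intro a _
  rw [← sum_add_distrib]

lemma tot_le {P Q : V → Finset V} (h : ∀ a b, b ∈ P a → a ∈ Q b → a = b) :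
    tot P + tot Q ≤ KK V := by
  rw [tot_add]
  unfold KK
  apply sum_le_sum
  intro a _
  apply sum_le_sum
  intro b _
  by_cases h1 : b ∈ P a
  · by_cases h2 : a ∈ Q b
    · rw [if_pos h1, if_pos h2, if_pos (h a b h1 h2)]
    · rw [if_pos h1, if_neg h2]
      omega
  · rw [if_neg h1]
    by_cases h2 : a ∈ Q b
    · rw [if_pos h2]
      omega
    · rw [if_neg h2]
      omega

lemma tot_eq {P Q : V → Finset V} (h : ∀ a b, a ≠ b → (b ∈ P a ↔ a ∉ Q b))
    (hP : ∀ a, a ∈ P a) (hQ : ∀ a, a ∈ Q a) : tot P + tot Q = KK V := by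
  rw [tot_add]
  unfold KK
  apply sum_congr rfl
  intro a _
  apply sum_congr rfl
  intro b _
  by_cases h3 : a = b
  · subst h3
    simp [hP a, hQ a]
  · have := h a b h3
    by_cases h1 : b ∈ P a
    · have h2 := this.1 h1
      simp [h1, h2, h3]
    · have h2 : a ∈ Q b := by
        by_contra h2
        exact h1 (this.2 h2)
      simp [h1, h2, h3]

/-- Outer pairs. -/
def F0 (o : V → Finset V) (B C : V → Finset V) : Prop :=
  (∀ a z, rr o a z → z ∈ B a) ∧ (∀ a z, rr o a z → z ∈ C a) ∧
    ∀ a b, b ∈ B a → a ∈ C b → a = b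

/-- Inner pairs. -/
def F2 (o : V → Finset V) (X Y : V → Finset V) : Prop :=
  (∀ a, a ∈ X a) ∧ (∀ a, a ∈ Y a) ∧ ∀ a b, b ∈ cl o (X a) → a ∈ cl o (Y b) → a = b

/-- Cost of a pair. -/
def EE (o : V → Finset V) (B C : V → Finset V) : ℕ := ∑ a, cc o (B a) + ∑ a, cc o (C a)

lemma sum_cc (o : V → Finset V) (F : V → Finset V) :
    ∑ a, cc o (F a) + tot F = tot (fun a => cl o (F a)) := by
  unfold tot
  rw [← sum_add_distrib]
  exact sum_congr rfl fun a _ => cc_add o (F a)

lemma sum_update_cc (o : V → Finset V) (F : V → Finset V) (a : V) (Y : Finset V) :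
    ∑ x, cc o (Function.update F a Y x) + cc o (F a) = ∑ x, cc o (F x) + cc o Y := by
  rw [← add_sum_erase univ _ (mem_univ a), ← add_sum_erase univ (fun x => cc o (F x)) (mem_univ a)]
  have : ∑ x ∈ univ.erase a, cc o (Function.update F a Y x) = ∑ x ∈ univ.erase a, cc o (F x) := by
    apply sum_congr rfl
    intro x hx
    rw [Function.update_of_ne (ne_of_mem_erase hx)]
  rw [this, Function.update_self]
  omega

theorem inout (o : V → Finset V) (B C : V → Finset V) (hF : F0 o B C)
    (hopt : ∀ B' C', F0 o B' C' → EE o B C ≤ EE o B' C') :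
    F2 o (meet (rr o) B) (meet (rr o) C) ∧
      EE o (meet (rr o) B) (meet (rr o) C) ≤ EE o B C := by
  obtain ⟨hB, hC, hBC⟩ := hF
  set U : V → Finset V := fun a => univ.filter (fun b => b = a ∨ a ∉ C b) with hU
  have mU : ∀ {a b}, b ∈ U a ↔ (b = a ∨ a ∉ C b) := by
    intro a b
    simp [hU]
  have hrefl : ∀ a, rr o a a := fun a => Or.inl rfl
  have hBself : ∀ a, a ∈ B a := fun a => hB a a (hrefl a)
  have hCself : ∀ a, a ∈ C a := fun a => hC a a (hrefl a)
  -- an arc `a → b` with `a ∈ C b` is impossible
  have harcC : ∀ a b, rr o a b → a ∈ C b → a = b := fun a b h h' => hBC a b (hB a b h) h'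
  have harcB : ∀ a b, rr o b a → b ∈ B a → a = b := fun a b h h' => hBC a b h' (hC b a h)
  have hBU : ∀ a, B a ⊆ U a := by
    intro a b hb
    rw [mU]
    by_cases h : a ∈ C b
    · exact Or.inl (hBC a b hb h).symm
    · exact Or.inr h
  have hR : ∀ a Y, B a ⊆ Y → Y ⊆ U a → cc o (B a) ≤ cc o Y := by
    intro a Y h1 h2
    have hF' : F0 o (Function.update B a Y) C := by
      refine ⟨?_, hC, ?_⟩
      · intro x z hz
        by_cases h : x = a
        · subst h
          rw [Function.update_self]
          exact h1 (hB x z hz)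
        · rw [Function.update_of_ne h]
          exact hB x z hz
      · intro x z hz hz'
        by_cases h : x = a
        · subst h
          rw [Function.update_self] at hz
          rcases mU.1 (h2 hz) with h | h
          · exact h.symm
          · exact absurd hz' h
        · rw [Function.update_of_ne h] at hz
          exact hBC x z hz hz'
    have h3 := hopt _ _ hF'
    have h4 := sum_update_cc o B a Y
    unfold EE at h3
    omega
  have hH : ∀ b, ∃ φ : V → V, Set.InjOn φ {a | b ∈ U a \ B a} ∧
      ∀ a, b ∈ U a \ B a → rr o a (φ a) ∧ b ∈ meet (rr o) U (φ a) := by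
    intro b
    have hall : ∀ s : Finset {a // b ∈ U a \ B a},
        s.card ≤ (s.biUnion (fun a => cl o {a.1} \ cl o (C b))).card := by
      intro s
      set S : Finset V := s.image Subtype.val with hS
      have hScard : S.card = s.card := card_image_of_injective s Subtype.val_injective
      have hSm : ∀ a ∈ S, b ∈ U a ∧ b ∉ B a := by
        intro a ha
        rw [hS, mem_image] at ha
        obtain ⟨x, _, rfl⟩ := ha
        exact mem_sdiff.1 x.2
      have hSC : Disjoint (C b) S := by
        rw [disjoint_left]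
        intro a ha ha'
        obtain ⟨h1, h2⟩ := hSm a ha'
        rcases mU.1 h1 with h | h
        · subst h
          exact h2 (hBself _)
        · exact h ha
      have hF' : F0 o B (Function.update C b (C b ∪ S)) := by
        refine ⟨hB, ?_, ?_⟩
        · intro x z hz
          by_cases h : x = b
          · subst h
            rw [Function.update_self]
            exact mem_union_left _ (hC x z hz)
          · rw [Function.update_of_ne h]
            exact hC x z hz
        · intro x z hz hz'
          by_cases h : z = b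
          · subst h
            rw [Function.update_self, mem_union] at hz'
            rcases hz' with h | h
            · exact hBC x z hz h
            · exact absurd hz (hSm x h).2
          · rw [Function.update_of_ne h] at hz'
            exact hBC x z hz hz'
      have h3 := hopt _ _ hF'
      have h4 := sum_update_cc o C b (C b ∪ S)
      have h5 : cc o (C b) ≤ cc o (C b ∪ S) := by
        unfold EE at h3
        omega
      have h6 := cc_add o (C b)
      have h7 := cc_add o (C b ∪ S)
      have h8 : (C b ∪ S).card = (C b).card + S.card := card_union_of_disjoint hSC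
      have h9 : (cl o (C b ∪ S)).card ≤ (cl o (C b)).card + (cl o S \ cl o (C b)).card := by
        rw [cl_union]
        have : cl o (C b) ∪ cl o S = cl o (C b) ∪ (cl o S \ cl o (C b)) := by
          rw [union_sdiff_self_eq_union]
        rw [this]
        exact card_union_le _ _
      have h10 : cl o S \ cl o (C b) ⊆ s.biUnion (fun a => cl o {a.1} \ cl o (C b)) := by
        intro z hz
        rw [mem_sdiff] at hz
        obtain ⟨a, ha, haz⟩ := mem_cl'.1 hz.1
        rw [hS, mem_image] at ha
        obtain ⟨x, hx, rfl⟩ := ha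
        rw [mem_biUnion]
        refine ⟨x, hx, ?_⟩
        rw [mem_sdiff]
        exact ⟨mem_cl'.2 ⟨x.1, mem_singleton_self _, haz⟩, hz.2⟩
      have h11 := card_le_card h10
      omega
    obtain ⟨f, hf1, hf2⟩ := (all_card_le_biUnion_card_iff_exists_injective
      (fun a : {a // b ∈ U a \ B a} => cl o {a.1} \ cl o (C b))).1 hall
    refine ⟨fun a => if h : b ∈ U a \ B a then f ⟨a, h⟩ else a, ?_, ?_⟩
    · intro x hx y hy hxy
      have hx' : b ∈ U x \ B x := hx
      have hy' : b ∈ U y \ B y := hy
      simp only [dif_pos hx', dif_pos hy'] at hxy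
      have := hf1 hxy
      exact congrArg Subtype.val this
    · intro a ha
      simp only [dif_pos ha]
      have h := hf2 ⟨a, ha⟩
      simp only [mem_sdiff] at h
      constructor
      · obtain ⟨x, hx, hxz⟩ := mem_cl'.1 h.1
        rw [mem_singleton] at hx
        subst hx
        exact hxz
      · rw [mem_meet]
        intro x hx
        rw [mU]
        right
        intro hxC
        exact h.2 (mem_cl'.2 ⟨x, hxC, hx⟩)
  have hkey := key (rr o) (cc_submod o) hBU hR hH
  set M : V → Finset V := meet (rr o) U with hM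
  have mM : ∀ {z b}, b ∈ M z ↔ ∀ a, rr o a z → b ∈ U a := fun {z b} => mem_meet (rr o)
  have mCo : ∀ {z b}, b ∈ meet (rr o) C z ↔ ∀ a, rr o a z → b ∈ C a := fun {z b} => mem_meet (rr o)
  -- (i)
  have i1 : tot U + tot C = KK V := by
    apply tot_eq
    · intro a b hab
      rw [mU]
      constructor
      · rintro (h | h)
        · exact absurd h.symm hab
        · exact h
      · exact Or.inr
    · intro a
      exact mU.2 (Or.inl rfl)
    · exact hCself
  -- (ii)
  have i2 : tot M + tot (fun a => cl o (C a)) = KK V := by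
    apply tot_eq
    · intro z b hzb
      rw [mM, mem_cl']
      constructor
      · rintro h ⟨a, ha, haz⟩
        rcases mU.1 (h a haz) with h' | h'
        · subst h'
          -- `b → z`
          rcases mU.1 (h z (hrefl z)) with h'' | h''
          · exact hzb h''.symm
          · exact h'' (hC b z haz)
        · exact h' ha
      · intro h a haz
        rw [mU]
        right
        intro ha
        exact h ⟨a, ha, haz⟩
    · intro z
      rw [mM]
      intro a haz
      rw [mU]
      by_cases h : a ∈ C z
      · exact Or.inl (harcC a z haz h).symm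
      · exact Or.inr h
    · intro a
      exact sub_cl o _ (hCself a)
  -- (iii)
  have i3 : tot (fun a => cl o (U a)) + tot (meet (rr o) C) = KK V := by
    apply tot_eq
    · intro a b hab
      rw [mCo, mem_cl']
      constructor
      · rintro ⟨x, hx, hxb⟩ h
        rcases mU.1 hx with h' | h'
        · subst h'
          exact hab (harcC x b hxb (h b (hrefl b)))
        · exact h' (h x hxb)
      · intro h
        push Not at h
        obtain ⟨x, hxb, hx⟩ := h
        exact ⟨x, mU.2 (Or.inr hx), hxb⟩
    · intro a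
      exact sub_cl o _ (mU.2 (Or.inl rfl))
    · intro b
      rw [mCo]
      intro a hab
      exact hC a b hab
  -- (iv)
  have hiv : ∀ z u, u ∈ cl o (M z) → z ∈ cl o (meet (rr o) C u) → z = u := by
    intro z u hu hz
    obtain ⟨b, hb, hbu⟩ := mem_cl'.1 hu
    obtain ⟨t, ht, htz⟩ := mem_cl'.1 hz
    have hbt : b = t := by
      rcases mU.1 (mM.1 hb t htz) with h | h
      · exact h
      · exact absurd (mCo.1 ht b hbu) h
    subst hbt
    have e1 : b = z := by
      rcases mU.1 (mM.1 hb z (hrefl z)) with h | h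
      · exact h
      · exact absurd (hC b z htz) h
    have e2 : b = u := harcC b u hbu (mCo.1 ht u (hrefl u))
    rw [← e1, e2]
  have i4 : tot (fun a => cl o (M a)) + tot (fun a => cl o (meet (rr o) C a)) ≤ KK V :=
    tot_le (fun a b h1 h2 => hiv a b h1 h2)
  have hBM : ∀ z, meet (rr o) B z ⊆ M z := by
    intro z b hb
    rw [mem_meet] at hb
    rw [mM]
    exact fun a ha => hBU a (hb a ha)
  constructor
  · refine ⟨?_, ?_, ?_⟩
    · intro a
      rw [mem_meet]
      exact fun x hx => hB x a hx
    · intro a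
      rw [mem_meet]
      exact fun x hx => hC x a hx
    · intro a b h1 h2
      exact hiv a b (cl_mono o (hBM a) h1) h2
  · have s1 := sum_cc o U
    have s2 := sum_cc o M
    have s3 := sum_cc o C
    have s4 := sum_cc o (meet (rr o) C)
    unfold EE
    omega

/-! ### Part 3 -/

/-- There is no counterexample. -/
theorem noCE [Nonempty V] (o : V → Finset V) (hCE : CE o)
    (hmin : ∀ o' : V → Finset V, CE o' → ∑ v, (o v).card ≤ ∑ v, (o' v).card) : False := by
  have hor := hCE.1
  have hrefl : ∀ a, rr o a a := fun a => Or.inl rfl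
  -- an inner optimal pair
  classical
  have hor2 : ∀ a b, rr o a b → rr o b a → a = b := by
    rintro a b (h | h) (h' | h')
    · exact h.symm
    · exact h.symm
    · exact h'
    · exact absurd h' (hor b a h)
  have hF2 : F2 o (fun a => {a}) (fun a => {a}) := by
    refine ⟨fun a => mem_singleton_self a, fun a => mem_singleton_self a, ?_⟩
    intro a b h1 h2
    obtain ⟨x, hx, hxb⟩ := mem_cl'.1 h1
    obtain ⟨y, hy, hya⟩ := mem_cl'.1 h2
    rw [mem_singleton] at hx hy
    subst hx hy
    exact hor2 _ _ hxb hya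
  obtain ⟨⟨X, Y⟩, hXY, hXYmin⟩ := exists_min_image
    (univ.filter (fun p : (V → Finset V) × (V → Finset V) => F2 o p.1 p.2))
    (fun p => EE o p.1 p.2) ⟨(fun a => {a}, fun a => {a}), by simpa using hF2⟩
  have hXY' : F2 o X Y := (mem_filter.1 hXY).2
  have hF0 : F0 o (fun a => cl o {a}) (fun a => cl o {a}) := by
    refine ⟨?_, ?_, hF2.2.2⟩
    · intro a z haz
      exact mem_cl'.2 ⟨a, mem_singleton_self a, haz⟩
    · intro a z haz
      exact mem_cl'.2 ⟨a, mem_singleton_self a, haz⟩
  obtain ⟨⟨B, C⟩, hBC, hBCmin⟩ := exists_min_image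
    (univ.filter (fun p : (V → Finset V) × (V → Finset V) => F0 o p.1 p.2))
    (fun p => EE o p.1 p.2) ⟨(fun a => cl o {a}, fun a => cl o {a}), by simpa using hF0⟩
  have hBC' : F0 o B C := (mem_filter.1 hBC).2
  have hBCmin' : ∀ B' C', F0 o B' C' → EE o B C ≤ EE o B' C' := by
    intro B' C' h
    exact hBCmin (B', C') (mem_filter.2 ⟨mem_univ _, h⟩)
  obtain ⟨hI, hle⟩ := inout o B C hBC' hBCmin'
  have h1 : EE o X Y ≤ EE o (meet (rr o) B) (meet (rr o) C) :=
    hXYmin (meet (rr o) B, meet (rr o) C) (mem_filter.2 ⟨mem_univ _, hI⟩)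
  have hN : F0 o (fun a => cl o (X a)) (fun a => cl o (Y a)) := by
    refine ⟨?_, ?_, hXY'.2.2⟩
    · intro a z haz
      exact mem_cl'.2 ⟨a, hXY'.1 a, haz⟩
    · intro a z haz
      exact mem_cl'.2 ⟨a, hXY'.2.1 a, haz⟩
  have h2 := hBCmin' _ _ hN
  -- some `X a` is not closed
  have hex : ∃ a, cl o (X a) ≠ X a := by
    by_contra hcon
    push Not at hcon
    -- a nonempty closed set of least size
    obtain ⟨Z, hZ, hZmin⟩ := exists_min_image
      (univ.filter (fun Z : Finset V => Z.Nonempty ∧ cl o Z ⊆ Z)) card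
      ⟨univ, by simp [univ_nonempty]⟩
    rw [mem_filter] at hZ
    obtain ⟨_, ⟨b, hb⟩, hZc⟩ := hZ
    have hout : (o b).Nonempty := by
      rw [← card_pos]
      exact lt_of_le_of_lt (Nat.zero_le _) (hCE.2 b)
    obtain ⟨a, ha⟩ := hout
    have haZ : a ∈ Z := hZc (mem_cl.2 (Or.inr ⟨b, hb, ha⟩))
    have hclosed : cl o (X a ∩ Z) ⊆ X a ∩ Z := by
      apply subset_inter
      · exact (cl_mono o inter_subset_left).trans (hcon a).le
      · exact (cl_mono o inter_subset_right).trans hZc
    have h3 := hZmin (X a ∩ Z) (mem_filter.2 ⟨mem_univ _, ⟨a, mem_inter.2 ⟨hXY'.1 a, haZ⟩⟩,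
      hclosed⟩)
    have h4 : X a ∩ Z = Z := eq_of_subset_of_card_le inter_subset_right h3
    have hbX : b ∈ X a := by
      have : b ∈ X a ∩ Z := by rw [h4]; exact hb
      exact (mem_inter.1 this).1
    have h5 : a = b := hXY'.2.2 a b (sub_cl o _ hbX) (mem_cl.2 (Or.inr ⟨b, hXY'.2.1 b, ha⟩))
    subst h5
    exact hor a a ha ha
  obtain ⟨a, ha⟩ := hex
  have h3 : EE o (fun a => cl o (X a)) (fun a => cl o (Y a)) < EE o X Y := by
    unfold EE
    apply add_lt_add_of_lt_of_le
    · exact sum_lt_sum (fun v _ => weakG o hCE hmin (X v)) ⟨a, mem_univ a, strictG o hCE hmin _ ha⟩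
    · exact sum_le_sum (fun v _ => weakG o hCE hmin (Y v))
  omega

theorem seymour [Nonempty V] (o : V → Finset V) (hor : Orient o) :
    ∃ v, (o v).card ≤ (N2 o v).card := by
  by_contra hcon
  push Not at hcon
  classical
  have hCE : CE o := ⟨hor, hcon⟩
  obtain ⟨o', ho', hmin⟩ := exists_min_image
    (univ.filter (fun o' : V → Finset V => CE o')) (fun o' => ∑ v, (o' v).card)
    ⟨o, mem_filter.2 ⟨mem_univ _, hCE⟩⟩
  exact noCE o' (mem_filter.1 ho').2
    (fun o'' h'' => hmin o'' (mem_filter.2 ⟨mem_univ _, h''⟩))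

end Vale.P038.H202
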