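import Mathlib

/-!
# P038: the submodular key lemma

`c` is a submodular function on the subsets of a finite type, `B a ⊆ U a` are two families of
sets such that `B a` minimises `c` on the interval `[B a, U a]`, and `M z`, `m z` are the
intersections of the `U a`, `B a` over the `a` with `r a z`.  If for every `b` there is an
injection `φ` on `{a : b ∈ U a \ B a}` with `r a (φ a)` and `b ∈ M (φ a)`, then
`∑ c (U a) + ∑ c (m z) ≤ ∑ c (B a) + ∑ c (M z)`.
-/

namespace Vale.P038.H202

open Finset

variable {V : Type*} [DecidableEq V]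

/-- Submodular function. -/
def Submod (c : Finset V → ℕ) : Prop :=
  ∀ X Y, c (X ∪ Y) + c (X ∩ Y) ≤ c X + c Y

/-- Least value of `c` on the sets between `P ∪ (W ∩ Q)` and `Q`. -/
noncomputable def kk (c : Finset V → ℕ) (P Q W : Finset V) : ℕ :=
  sInf {n | ∃ Y, P ∪ (W ∩ Q) ⊆ Y ∧ Y ⊆ Q ∧ c Y = n}

lemma kk_mem (c : Finset V → ℕ) {P Q : Finset V} (W : Finset V) (h : P ⊆ Q) :
    ∃ Y, P ∪ (W ∩ Q) ⊆ Y ∧ Y ⊆ Q ∧ c Y = kk c P Q W := by
  have hne : {n | ∃ Y, P ∪ (W ∩ Q) ⊆ Y ∧ Y ⊆ Q ∧ c Y = n}.Nonempty :=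
    ⟨c Q, Q, union_subset h inter_subset_right, Subset.rfl, rfl⟩
  exact Nat.sInf_mem hne

lemma kk_le (c : Finset V → ℕ) {P Q W Y : Finset V} (h1 : P ∪ (W ∩ Q) ⊆ Y) (h2 : Y ⊆ Q) :
    kk c P Q W ≤ c Y :=
  Nat.sInf_le ⟨Y, h1, h2, rfl⟩

lemma kk_univ [Fintype V] (c : Finset V → ℕ) {P Q : Finset V} (h : P ⊆ Q) : kk c P Q univ = c Q := by
  obtain ⟨Y, h1, h2, h3⟩ := kk_mem c univ h
  have : Y = Q := by
    apply Subset.antisymm h2
    intro x hx
    apply h1
    simp [hx]
  rw [← h3, this]

lemma kk_empty (c : Finset V → ℕ) {P Q : Finset V} (h : P ⊆ Q)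
    (hm : ∀ Y, P ⊆ Y → Y ⊆ Q → c P ≤ c Y) : kk c P Q ∅ = c P := by
  apply le_antisymm
  · exact kk_le c (by simp) h
  · obtain ⟨Y, h1, h2, h3⟩ := kk_mem c ∅ h
    rw [← h3]
    exact hm Y (subset_union_left.trans h1) h2

lemma kk_mono (c : Finset V → ℕ) {P Q : Finset V} (W : Finset V) (b : V) (h : P ⊆ Q) :
    kk c P Q W ≤ kk c P Q (insert b W) := by
  obtain ⟨Y, h1, h2, h3⟩ := kk_mem c (insert b W) h
  rw [← h3]
  refine kk_le c (Subset.trans ?_ h1) h2
  exact union_subset_union Subset.rfl (inter_subset_inter (subset_insert _ _) Subset.rfl)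

lemma kk_eq (c : Finset V → ℕ) {P Q : Finset V} (W : Finset V) {b : V} (hb : b ∉ Q \ P) :
    kk c P Q (insert b W) = kk c P Q W := by
  have : P ∪ (insert b W ∩ Q) = P ∪ (W ∩ Q) := by
    ext x
    simp only [mem_union, mem_inter, mem_insert, mem_sdiff, not_and, not_not] at hb ⊢
    constructor
    · rintro (h | ⟨rfl | h, h'⟩)
      · exact Or.inl h
      · exact Or.inl (hb h')
      · exact Or.inr ⟨h, h'⟩
    · rintro (h | ⟨h, h'⟩)
      · exact Or.inl h
      · exact Or.inr ⟨Or.inr h, h'⟩
  unfold kk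
  rw [this]

lemma kk_step {c : Finset V → ℕ} (hc : Submod c) {P Q P' Q' : Finset V} (W : Finset V) {b : V}
    (h : P ⊆ Q) (h' : P' ⊆ Q') (hP : P' ⊆ P) (hQ : Q' ⊆ Q) (hb : b ∈ Q') :
    kk c P Q (insert b W) + kk c P' Q' W ≤ kk c P Q W + kk c P' Q' (insert b W) := by
  obtain ⟨Y, h1, h2, h3⟩ := kk_mem c W h
  obtain ⟨Y', h1', h2', h3'⟩ := kk_mem c (insert b W) h'
  rw [← h3, ← h3']
  have e1 : kk c P Q (insert b W) ≤ c (Y ∪ Y') := by
    apply kk_le
    · intro x hx
      simp only [mem_union, mem_inter, mem_insert] at hx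
      rcases hx with hx | ⟨rfl | hx, hx'⟩
      · exact mem_union_left _ (h1 (mem_union_left _ hx))
      · exact mem_union_right _ (h1' (mem_union_right _ (mem_inter.2 ⟨mem_insert_self _ _, hb⟩)))
      · exact mem_union_left _ (h1 (mem_union_right _ (mem_inter.2 ⟨hx, hx'⟩)))
    · exact union_subset h2 (h2'.trans hQ)
  have e2 : kk c P' Q' W ≤ c (Y ∩ Y') := by
    apply kk_le
    · intro x hx
      simp only [mem_union, mem_inter] at hx
      rcases hx with hx | ⟨hx, hx'⟩
      · exact mem_inter.2 ⟨h1 (mem_union_left _ (hP hx)), h1' (mem_union_left _ hx)⟩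
      · exact mem_inter.2 ⟨h1 (mem_union_right _ (mem_inter.2 ⟨hx, hQ hx'⟩)),
          h1' (mem_union_right _ (mem_inter.2 ⟨mem_insert_of_mem hx, hx'⟩))⟩
    · exact inter_subset_right.trans h2'
  have := hc Y Y'
  omega

section Key

variable [Fintype V] (r : V → V → Prop) [DecidableRel r]

/-- Intersection of the `F a` over all `a` with `r a z`. -/
def meet (F : V → Finset V) (z : V) : Finset V :=
  univ.filter (fun b => ∀ a, r a z → b ∈ F a)

lemma mem_meet {F : V → Finset V} {z b : V} : b ∈ meet r F z ↔ ∀ a, r a z → b ∈ F a := by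
  simp [meet]

lemma meet_min {c : Finset V → ℕ} (hc : Submod c) {B U : V → Finset V}
    (hR : ∀ a Y, B a ⊆ Y → Y ⊆ U a → c (B a) ≤ c Y) (hBU : ∀ a, B a ⊆ U a) (z : V)
    (Y : Finset V) (h1 : meet r B z ⊆ Y) (h2 : Y ⊆ meet r U z) :
    c (meet r B z) ≤ c Y := by
  -- intersect with the `B a`, one after the other
  have key : ∀ S : Finset V, (∀ a ∈ S, r a z) →
      c (Y.filter (fun b => ∀ a ∈ S, b ∈ B a)) ≤ c Y := by
    intro S
    induction S using Finset.induction_on with
    | empty => intro _; simp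
    | insert a S ha ih =>
      intro hS
      have ih' := ih (fun a' ha' => hS a' (mem_insert_of_mem ha'))
      set Z := Y.filter (fun b => ∀ a ∈ S, b ∈ B a) with hZ
      have hra : r a z := hS a (mem_insert_self _ _)
      have e : Y.filter (fun b => ∀ a' ∈ insert a S, b ∈ B a') = Z ∩ B a := by
        ext b
        simp only [hZ, mem_filter, mem_inter, mem_insert]
        constructor
        · rintro ⟨h, h'⟩
          exact ⟨⟨h, fun a' ha' => h' a' (Or.inr ha')⟩, h' a (Or.inl rfl)⟩
        · rintro ⟨⟨h, h'⟩, h''⟩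
          refine ⟨h, ?_⟩
          rintro a' (rfl | ha')
          · exact h''
          · exact h' a' ha'
      rw [e]
      have s1 := hc Z (B a)
      have s2 : c (B a) ≤ c (Z ∪ B a) := by
        apply hR a _ subset_union_right
        apply union_subset _ (hBU a)
        intro b hb
        have hb' : b ∈ Y := (mem_filter.1 hb).1
        exact (mem_meet r).1 (h2 hb') a hra
      omega
  have k := key (univ.filter (fun a => r a z)) (by simp)
  have e : Y.filter (fun b => ∀ a ∈ univ.filter (fun a => r a z), b ∈ B a) = meet r B z := by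
    ext b
    simp only [mem_filter, mem_univ, true_and, mem_meet]
    constructor
    · rintro ⟨_, h⟩
      exact h
    · intro h
      exact ⟨h1 ((mem_meet r).2 h), h⟩
  rw [e] at k
  exact k

theorem key {c : Finset V → ℕ} (hc : Submod c) {B U : V → Finset V}
    (hBU : ∀ a, B a ⊆ U a)
    (hR : ∀ a Y, B a ⊆ Y → Y ⊆ U a → c (B a) ≤ c Y)
    (hC : ∀ b, ∃ φ : V → V, Set.InjOn φ {a | b ∈ U a \ B a} ∧
      ∀ a, b ∈ U a \ B a → r a (φ a) ∧ b ∈ meet r U (φ a)) :
    ∑ a, c (U a) + ∑ z, c (meet r B z) ≤ ∑ a, c (B a) + ∑ z, c (meet r U z) := by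
  have hmM : ∀ z, meet r B z ⊆ meet r U z := by
    intro z b hb
    rw [mem_meet] at hb ⊢
    exact fun a ha => hBU a (hb a ha)
  have main : ∀ W : Finset V,
      ∑ a, kk c (B a) (U a) W + ∑ z, kk c (meet r B z) (meet r U z) ∅ ≤
      ∑ a, kk c (B a) (U a) ∅ + ∑ z, kk c (meet r B z) (meet r U z) W := by
    intro W
    induction W using Finset.induction_on with
    | empty => exact le_rfl
    | insert b W hbW ih =>
      obtain ⟨φ, hinj, hφ⟩ := hC b
      have step : ∑ a, kk c (B a) (U a) (insert b W) + ∑ z, kk c (meet r B z) (meet r U z) W ≤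
          ∑ a, kk c (B a) (U a) W + ∑ z, kk c (meet r B z) (meet r U z) (insert b W) := by
        set al : V → ℤ := fun a => (kk c (B a) (U a) (insert b W) : ℤ) - kk c (B a) (U a) W
          with hal
        set ga : V → ℤ := fun z => (kk c (meet r B z) (meet r U z) (insert b W) : ℤ)
          - kk c (meet r B z) (meet r U z) W with hga
        have hga0 : ∀ z, 0 ≤ ga z := by
          intro z
          have := kk_mono c W b (hmM z)
          simp only [hga]
          omega
        have hal0 : ∀ a, b ∉ U a \ B a → al a = 0 := by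
          intro a ha
          simp only [hal]
          rw [kk_eq c W ha]
          ring
        set T : Finset V := univ.filter (fun a => b ∈ U a \ B a) with hT
        have h1 : ∑ a, al a = ∑ a ∈ T, al a := by
          rw [hT, sum_filter]
          apply sum_congr rfl
          intro a _
          by_cases h : b ∈ U a \ B a
          · rw [if_pos h]
          · rw [if_neg h, hal0 a h]
        have h2 : ∑ a ∈ T, al a ≤ ∑ a ∈ T, ga (φ a) := by
          apply sum_le_sum
          intro a ha
          have ha' : b ∈ U a \ B a := (mem_filter.1 ha).2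
          obtain ⟨hra, hbM⟩ := hφ a ha'
          have := kk_step hc W (hBU a) (hmM (φ a))
            (fun x hx => (mem_meet r).1 hx a hra) (fun x hx => (mem_meet r).1 hx a hra) hbM
          simp only [hal, hga]
          omega
        have h3 : ∑ a ∈ T, ga (φ a) = ∑ z ∈ T.image φ, ga z := by
          rw [sum_image]
          intro x hx y hy hxy
          apply hinj _ _ hxy
          · exact (mem_filter.1 hx).2
          · exact (mem_filter.1 hy).2
        have h4 : ∑ z ∈ T.image φ, ga z ≤ ∑ z, ga z := by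
          apply sum_le_sum_of_subset_of_nonneg (subset_univ _)
          intro z _ _
          exact hga0 z
        have h5 : ∑ a, al a ≤ ∑ z, ga z := by
          rw [h1]
          exact h2.trans (h3.le.trans h4)
        simp only [hal, hga, sum_sub_distrib] at h5
        zify
        linarith
      omega
  have := main univ
  have e1 : ∀ a, kk c (B a) (U a) univ = c (U a) := fun a => kk_univ c (hBU a)
  have e2 : ∀ z, kk c (meet r B z) (meet r U z) univ = c (meet r U z) :=
    fun z => kk_univ c (hmM z)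
  have e3 : ∀ a, kk c (B a) (U a) ∅ = c (B a) := fun a => kk_empty c (hBU a) (hR a)
  have e4 : ∀ z, kk c (meet r B z) (meet r U z) ∅ = c (meet r B z) :=
    fun z => kk_empty c (hmM z) (fun Y h1 h2 => meet_min r hc hR hBU z Y h1 h2)
  simp only [e1, e2, e3, e4] at this
  exact this

end Key

end Vale.P038.H202
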